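import Vale.Agent.P280B30.Rows
import Vale.Agent.P299G50.Hol

/-!
# P280: the row `LBH`
-/

open scoped Manifold ContDiff Topology
open MvPolynomial Filter
open Vale.Agent.P272.K Vale.Agent.P285.H281.FD Vale.Agent.P300.Final Vale.Agent.P299G40
open Vale.Agent.P299G50
open Vale.Agent.P009.AV (aff IsZar)

namespace Vale.Agent.P280L14

variable {n N : ℕ} {X : Type} [TopologicalSpace X] [ChartedSpace (Cm n) X]
  [IsManifold 𝓘(ℂ, Cm n) ω X] {Φ : X → PN N}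

theorem ev_ne (hΦ : IsProjectiveImmersion (Cm n) Φ) {e : Chart n X} {x : X} (h : At e x)
    {P : MvPolynomial (Fin (N + 1)) ℂ} {d : ℕ} (hP : P.IsHomogeneous d)
    (h0 : eval (Φ x).rep P ≠ 0) : ∀ᶠ z in 𝓝 (e x), eval (Φ (e.symm z)).rep P ≠ 0 := by
  obtain ⟨i, hi⟩ := Function.ne_iff.1 (Φ x).rep_nonzero
  have h1 : eval (aff i (Φ (e.symm (e x)))) P ≠ 0 := by
    rw [e.left_inv h.2, eval_aff hP]
    exact mul_ne_zero (pow_ne_zero _ (inv_ne_zero hi)) h0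
  filter_upwards [(eval_holo hΦ h hi P).continuousAt.eventually_ne h1] with z hz
  rw [eval_aff hP] at hz
  exact right_ne_zero_of_mul hz

theorem isOpen_pre (hΦ : IsProjectiveImmersion (Cm n) Φ) {W : Set (PN N)} (hW : IsZar W) :
    IsOpen (Φ ⁻¹' Wᶜ) := by
  obtain ⟨I, hI, hW⟩ := hW
  refine isOpen_iff_mem_nhds.2 fun x hx => ?_
  have hx' : ¬ ∀ f ∈ I, eval (Φ x).rep f = 0 := fun h => hx ((hW _).2 h)
  push Not at hx'
  obtain ⟨P, hP, h0⟩ := hx'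
  obtain ⟨d, hd⟩ := hI P hP
  have h1 := ev_ne hΦ (e := chartAt (Cm n) x) ⟨chart_mem_atlas _ _, mem_chart_source _ _⟩ hd h0
  filter_upwards [((chartAt (Cm n) x).continuousAt (mem_chart_source _ x)).eventually h1,
    chart_source_mem_nhds (Cm n) x] with y h2 h3
  rw [(chartAt (Cm n) x).left_inv h3] at h2
  exact fun hy => h2 ((hW _).1 hy P hP)

theorem holo_of_regular (hΦ : IsProjectiveImmersion (Cm n) Φ) {U : Set (PN N)} {g : PN N → ℂ}
    (hg : RegularOn U g) (hU : IsOpen (Φ ⁻¹' U)) {e : Chart n X} {x : X} (h : At e x)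
    (hx : Φ x ∈ U) : ContDiffAt ℂ ω (fun z => g (Φ (e.symm z))) (e x) := by
  obtain ⟨P, Q, d, hP, hQ, h0, hPQ⟩ := hg _ hx
  obtain ⟨i, hi⟩ := Function.ne_iff.1 (Φ x).rep_nonzero
  have h1 : eval (aff i (Φ (e.symm (e x)))) Q ≠ 0 := by
    rw [e.left_inv h.2, eval_aff hQ]
    exact mul_ne_zero (pow_ne_zero _ (inv_ne_zero hi)) h0
  refine ((eval_holo hΦ h hi P).div (eval_holo hΦ h hi Q) h1).congr_of_eventuallyEq ?_
  filter_upwards [ev_ne hΦ h hQ h0, (aff_holo hΦ h hi).1,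
    (e.tendsto_symm h.2).eventually (hU.mem_nhds hx)] with z h2 h3 h4
  rw [hPQ _ h4 h2, Pi.div_apply, eval_aff hP, eval_aff hQ,
    mul_div_mul_left _ _ (pow_ne_zero _ (inv_ne_zero h3))]

end Vale.Agent.P280L14

namespace Vale.Agent.P280A

open Vale.Agent.P280L14

theorem lbh14 : LBH := by
  intro n N Z X _ _ _ Φ ⟨_, hΦ, hZ⟩ L
  have hz : ∀ x, Φ x ∈ Z := fun x => hZ ▸ Set.mem_range_self x
  have ho : ∀ i, IsOpen (Φ ⁻¹' L.U i) := fun i => by
    obtain ⟨W, hW, e⟩ := L.isOpen i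
    have : Φ ⁻¹' L.U i = Φ ⁻¹' Wᶜ := by
      rw [e]
      exact Set.ext fun x => and_iff_right (hz x)
    rw [this]
    exact isOpen_pre hΦ hW
  exact ⟨ho, fun x => L.cover _ (hz x),
    fun i j e x he hi hj => holo_of_regular hΦ (L.regular i j) ((ho i).inter (ho j)) he ⟨hi, hj⟩,
    fun i j x hi hj => L.ne_zero i j _ ⟨hi, hj⟩,
    fun i j k x hi hj hk => L.cocycle i j k _ ⟨⟨hi, hj⟩, hk⟩⟩

end Vale.Agent.P280A
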